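import Vale.Agent.Lib.P160.Closed

/-!
# P160, job H: the numeric lemma of the few-values theorem (helper18 copy)

`m ^ n * 2 ^ n * Qr (s - m) ≤ (243 / 512) ^ n` whenever `2 ^ 60 * m ^ 2 ≤ n`,
`(1 - 40 / logb 2 n) * n ≤ s ≤ n` and `1 ≤ m`.  We prove the squared inequality: with
`k = s - m`, `d = n - k` one has `Qr k ^ 2 * k ^ k ≤ 4 ^ k` (factorial bound), `n ≤ 4 * k`,
`n ^ d ≤ 2 ^ (41 * n)` and `m ^ 2 ≤ n / 2 ^ 60`.
-/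

namespace Vale.Agent.Lib.P160

open Finset

/-- `y ≤ 2 ^ y` for positive real `y`. -/
theorem h18_le_two_rpow {y : ℝ} (hy : 0 < y) : y ≤ (2 : ℝ) ^ y := by
  have h1 : y < (⌊y⌋₊ : ℝ) + 1 := Nat.lt_floor_add_one y
  have h2 : ((⌊y⌋₊ : ℝ) + 1) ≤ (2 : ℝ) ^ ⌊y⌋₊ := by
    have h := Nat.lt_two_pow_self (n := ⌊y⌋₊)
    have h' : ⌊y⌋₊ + 1 ≤ 2 ^ ⌊y⌋₊ := h
    exact_mod_cast h'
  have h3 : (2 : ℝ) ^ (⌊y⌋₊ : ℝ) ≤ (2 : ℝ) ^ y :=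
    Real.rpow_le_rpow_of_exponent_le (by norm_num) (Nat.floor_le hy.le)
  rw [Real.rpow_natCast] at h3
  linarith

/-- `Lr s ^ 2 * s ≤ 1`. -/
theorem h18_Lr_sq_mul_le (s : ℕ) : Lr s ^ 2 * (s : ℝ) ≤ 1 := by
  have h1 : Lr s ≤ Lr (2 * (s / 2)) := Lr_antitone (by omega)
  have h2 : (s : ℝ) ≤ 2 * ((s / 2 : ℕ) : ℝ) + 1 := by
    have h : s ≤ 2 * (s / 2) + 1 := by omega
    exact_mod_cast h
  have h3 := Lr_even_sq (s / 2)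
  have h4 : Lr s ^ 2 ≤ Lr (2 * (s / 2)) ^ 2 := pow_le_pow_left₀ (Lr_pos s).le h1 2
  have h5 : (0 : ℝ) ≤ (s : ℝ) := Nat.cast_nonneg s
  have h6 : (0 : ℝ) ≤ Lr (2 * (s / 2)) ^ 2 := by positivity
  calc Lr s ^ 2 * (s : ℝ) ≤ Lr (2 * (s / 2)) ^ 2 * (s : ℝ) :=
        mul_le_mul_of_nonneg_right h4 h5
    _ ≤ Lr (2 * (s / 2)) ^ 2 * (2 * ((s / 2 : ℕ) : ℝ) + 1) :=
        mul_le_mul_of_nonneg_left h2 h6
    _ ≤ 1 := h3

/-- `Qr k ^ 2 * k ! ≤ 1`. -/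
theorem h18_Qr_sq_factorial (k : ℕ) : Qr k ^ 2 * (k.factorial : ℝ) ≤ 1 := by
  induction k with
  | zero => simp [Qr, Lr_zero]
  | succ k ih =>
    rw [Qr_succ, Nat.factorial_succ]
    have h1 := h18_Lr_sq_mul_le (k + 1)
    push_cast at h1 ⊢
    have h2 : 0 ≤ Qr k ^ 2 * (k.factorial : ℝ) := by positivity
    calc (Qr k * Lr (k + 1)) ^ 2 * (((k : ℝ) + 1) * (k.factorial : ℝ))
        = (Qr k ^ 2 * (k.factorial : ℝ)) * (Lr (k + 1) ^ 2 * ((k : ℝ) + 1)) := by ring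
      _ ≤ (Qr k ^ 2 * (k.factorial : ℝ)) * 1 := mul_le_mul_of_nonneg_left h1 h2
      _ ≤ 1 := by rw [mul_one]; exact ih

/-- `k ^ k ≤ 4 ^ k * k !`. -/
theorem h18_pow_self_le (k : ℕ) : (k : ℝ) ^ k ≤ 4 ^ k * (k.factorial : ℝ) := by
  have h := Real.pow_div_factorial_le_exp (x := (k : ℝ)) (Nat.cast_nonneg k) k
  have hf : (0 : ℝ) < (k.factorial : ℝ) := by exact_mod_cast Nat.factorial_pos k
  rw [div_le_iff₀ hf] at h
  have he : Real.exp (k : ℝ) ≤ 4 ^ k := by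
    rw [← Real.exp_one_pow]
    have h3 : Real.exp 1 ≤ 4 := by
      have := Real.exp_one_lt_d9
      linarith
    exact pow_le_pow_left₀ (Real.exp_pos 1).le h3 k
  calc (k : ℝ) ^ k ≤ Real.exp k * k.factorial := h
    _ ≤ 4 ^ k * k.factorial := mul_le_mul_of_nonneg_right he hf.le

/-- `Qr k ^ 2 * k ^ k ≤ 4 ^ k`. -/
theorem h18_Qr_sq_pow (k : ℕ) : Qr k ^ 2 * (k : ℝ) ^ k ≤ 4 ^ k := by
  have h1 := h18_Qr_sq_factorial k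
  have h2 := h18_pow_self_le k
  have h3 : 0 ≤ Qr k ^ 2 := by positivity
  calc Qr k ^ 2 * (k : ℝ) ^ k ≤ Qr k ^ 2 * (4 ^ k * (k.factorial : ℝ)) :=
        mul_le_mul_of_nonneg_left h2 h3
    _ = 4 ^ k * (Qr k ^ 2 * (k.factorial : ℝ)) := by ring
    _ ≤ 4 ^ k * 1 := mul_le_mul_of_nonneg_left h1 (by positivity)
    _ = 4 ^ k := mul_one _

theorem values_num : ∃ C : ℝ, ∀ (m n s : ℕ), 1 ≤ m → 2 ^ 60 * m ^ 2 ≤ n →
    (1 - 40 / Real.logb 2 (n : ℝ)) * (n : ℝ) ≤ (s : ℝ) → s ≤ n →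
    (m : ℝ) ^ n * 2 ^ n * Qr (s - m) ≤ C * (243 / 512) ^ n := by
  refine ⟨1, ?_⟩
  intro m n s hm hmn hs hsn
  rw [one_mul]
  -- basic facts in ℕ
  have hm2 : m ≤ m ^ 2 := Nat.le_self_pow (by norm_num) m
  have hn60 : 2 ^ 60 ≤ n :=
    calc 2 ^ 60 = 2 ^ 60 * 1 := by norm_num
      _ ≤ 2 ^ 60 * m ^ 2 := Nat.mul_le_mul_left _ (Nat.one_le_pow _ _ hm)
      _ ≤ n := hmn
  have hmn' : 2 ^ 60 * m ≤ n := le_trans (Nat.mul_le_mul_left _ hm2) hmn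
  -- the same in ℝ
  have hnR : (2 : ℝ) ^ 60 ≤ (n : ℝ) := by exact_mod_cast hn60
  have hn0 : (0 : ℝ) < n := lt_of_lt_of_le (by positivity) hnR
  have hmR : (2 : ℝ) ^ 60 * (m : ℝ) ^ 2 ≤ (n : ℝ) := by exact_mod_cast hmn
  have hmR' : (2 : ℝ) ^ 60 * (m : ℝ) ≤ (n : ℝ) := by exact_mod_cast hmn'
  have hm0 : (0 : ℝ) ≤ (m : ℝ) := Nat.cast_nonneg m
  have hm12 : 12 * (m : ℝ) ≤ (n : ℝ) := by
    have h12 : (12 : ℝ) ≤ 2 ^ 60 := by norm_num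
    exact le_trans (mul_le_mul_of_nonneg_right h12 hm0) hmR'
  have hmsq : (m : ℝ) ^ 2 ≤ (n : ℝ) / 2 ^ 60 := by
    rw [le_div_iff₀ (by positivity)]
    linarith
  -- the logarithm
  have h2L : (2 : ℝ) ^ Real.logb 2 (n : ℝ) = n :=
    Real.rpow_logb (by norm_num) (by norm_num) hn0
  have hL60 : 60 ≤ Real.logb 2 (n : ℝ) := by
    rw [Real.le_logb_iff_rpow_le (by norm_num) hn0]
    have e : (2 : ℝ) ^ (60 : ℝ) = 2 ^ (60 : ℕ) := by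
      rw [← Real.rpow_natCast]
      norm_num
    rw [e]
    exact hnR
  generalize Real.logb 2 (n : ℝ) = L at *
  have hL0 : 0 < L := by linarith
  have hLsq : L ^ 2 ≤ 4 * (n : ℝ) := by
    have h1 : L / 2 ≤ (2 : ℝ) ^ (L / 2) := h18_le_two_rpow (by linarith)
    have h2 : ((2 : ℝ) ^ (L / 2)) ^ 2 = n := by
      rw [← Real.rpow_natCast, ← Real.rpow_mul (by norm_num)]
      have e : L / 2 * ((2 : ℕ) : ℝ) = L := by push_cast; ring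
      rw [e]
      exact h2L
    have h3 : (L / 2) ^ 2 ≤ ((2 : ℝ) ^ (L / 2)) ^ 2 :=
      pow_le_pow_left₀ (by linarith) h1 2
    rw [h2] at h3
    linarith
  -- s ≥ n / 3
  have hs3 : (n : ℝ) / 3 ≤ (s : ℝ) := by
    have h1 : 40 / L ≤ 2 / 3 := by
      rw [div_le_iff₀ hL0]
      linarith
    have h2 : (1 - 2 / 3) * (n : ℝ) ≤ (1 - 40 / L) * (n : ℝ) :=
      mul_le_mul_of_nonneg_right (by linarith) hn0.le
    linarith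
  -- (n - s) L ≤ 40 n
  have hsL : ((n : ℝ) - s) * L ≤ 40 * (n : ℝ) := by
    have h1 : (1 - 40 / L) * (n : ℝ) * L = (n : ℝ) * L - 40 * n := by
      field_simp
    have h2 : (1 - 40 / L) * (n : ℝ) * L ≤ (s : ℝ) * L :=
      mul_le_mul_of_nonneg_right hs hL0.le
    linarith
  -- m L ≤ n
  have hmL : (m : ℝ) * L ≤ (n : ℝ) := by
    have h1 : ((m : ℝ) * L) ^ 2 ≤ (n : ℝ) ^ 2 := by
      rw [mul_pow]
      have h64 : (4 : ℝ) ≤ 2 ^ 60 := by norm_num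
      calc (m : ℝ) ^ 2 * L ^ 2 ≤ ((n : ℝ) / 2 ^ 60) * (4 * (n : ℝ)) :=
            mul_le_mul hmsq hLsq (by positivity) (by positivity)
        _ = (n : ℝ) ^ 2 * (4 / 2 ^ 60) := by ring
        _ ≤ (n : ℝ) ^ 2 * 1 := by
            apply mul_le_mul_of_nonneg_left _ (by positivity)
            rw [div_le_one (by positivity)]
            exact h64
        _ = (n : ℝ) ^ 2 := mul_one _
    exact (pow_le_pow_iff_left₀ (by positivity) hn0.le (by norm_num)).mp h1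
  -- k = s - m and d = n - k
  have hms : m ≤ s := by
    have h : (m : ℝ) ≤ (s : ℝ) := by linarith
    exact_mod_cast h
  obtain ⟨k, hk⟩ : ∃ k, s = k + m := ⟨s - m, (Nat.sub_add_cancel hms).symm⟩
  have hsub : s - m = k := by omega
  rw [hsub]
  have hkn : k ≤ n := by omega
  obtain ⟨d, hd⟩ : ∃ d, n = d + k := ⟨n - k, (Nat.sub_add_cancel hkn).symm⟩
  have hkR : (s : ℝ) = (k : ℝ) + m := by exact_mod_cast hk
  have hdR : (n : ℝ) = (d : ℝ) + k := by exact_mod_cast hd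
  have hk4 : (n : ℝ) ≤ 4 * (k : ℝ) := by linarith
  have hdL : L * (d : ℝ) ≤ 41 * (n : ℝ) := by
    have e : L * (d : ℝ) = ((n : ℝ) - s) * L + (m : ℝ) * L := by
      rw [hkR, hdR]; ring
    linarith
  -- n ^ d ≤ (2 ^ 41) ^ n
  have hnd : (n : ℝ) ^ d ≤ ((2 : ℝ) ^ 41) ^ n := by
    have e1 : (n : ℝ) ^ d = (2 : ℝ) ^ (L * (d : ℝ)) := by
      rw [Real.rpow_mul (by norm_num), h2L, Real.rpow_natCast]
    have e2 : ((2 : ℝ) ^ 41) ^ n = (2 : ℝ) ^ (((41 * n : ℕ)) : ℝ) := by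
      rw [Real.rpow_natCast, pow_mul]
    rw [e1, e2]
    apply Real.rpow_le_rpow_of_exponent_le (by norm_num)
    push_cast
    exact hdL
  -- n ^ k ≤ 4 ^ k * k ^ k
  have hnk : (n : ℝ) ^ k ≤ 4 ^ k * (k : ℝ) ^ k := by
    rw [← mul_pow]
    exact pow_le_pow_left₀ hn0.le hk4 k
  have h4k : (4 : ℝ) ^ k ≤ 4 ^ n := pow_le_pow_right₀ (by norm_num) hkn
  have hQ := h18_Qr_sq_pow k
  have hQ0 : 0 ≤ Qr k ^ 2 := by positivity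
  -- n ^ n * Qr k ^ 2 ≤ (2 ^ 41) ^ n * 4 ^ n * 4 ^ n
  have hmain : (n : ℝ) ^ n * Qr k ^ 2 ≤ ((2 : ℝ) ^ 41) ^ n * (4 ^ n * 4 ^ n) := by
    have e : (n : ℝ) ^ n = (n : ℝ) ^ d * (n : ℝ) ^ k := by
      rw [← pow_add, ← hd]
    have h1 : (n : ℝ) ^ k * Qr k ^ 2 ≤ 4 ^ n * 4 ^ n :=
      calc (n : ℝ) ^ k * Qr k ^ 2 ≤ (4 ^ k * (k : ℝ) ^ k) * Qr k ^ 2 :=
            mul_le_mul_of_nonneg_right hnk hQ0
        _ = 4 ^ k * (Qr k ^ 2 * (k : ℝ) ^ k) := by ring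
        _ ≤ 4 ^ k * 4 ^ k := mul_le_mul_of_nonneg_left hQ (by positivity)
        _ ≤ 4 ^ n * 4 ^ n := mul_le_mul h4k h4k (by positivity) (by positivity)
    calc (n : ℝ) ^ n * Qr k ^ 2 = (n : ℝ) ^ d * ((n : ℝ) ^ k * Qr k ^ 2) := by
          rw [e]; ring
      _ ≤ ((2 : ℝ) ^ 41) ^ n * (4 ^ n * 4 ^ n) :=
          mul_le_mul hnd h1 (by positivity) (by positivity)
  -- the squared inequality
  have hX0 : 0 ≤ (m : ℝ) ^ n * 2 ^ n * Qr k :=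
    mul_nonneg (by positivity) (Qr_pos k).le
  have hsq : ((m : ℝ) ^ n * 2 ^ n * Qr k) ^ 2 ≤ ((243 / 512 : ℝ) ^ n) ^ 2 := by
    have e4 : ((2 : ℝ) ^ n) ^ 2 = 4 ^ n := by
      rw [← pow_mul, mul_comm, pow_mul]
      norm_num
    have eX : ((m : ℝ) ^ n * 2 ^ n * Qr k) ^ 2 = ((m : ℝ) ^ 2) ^ n * 4 ^ n * Qr k ^ 2 := by
      rw [← e4]; ring
    have hM : ((m : ℝ) ^ 2) ^ n ≤ (n : ℝ) ^ n / ((2 : ℝ) ^ 60) ^ n := by
      rw [← div_pow]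
      exact pow_le_pow_left₀ (by positivity) hmsq n
    have hfin : ((2 : ℝ) ^ 41 * 4 * 4 * 4 / 2 ^ 60) ^ n ≤ ((243 / 512 : ℝ) ^ 2) ^ n :=
      pow_le_pow_left₀ (by positivity) (by norm_num) n
    have e5 : ((243 / 512 : ℝ) ^ n) ^ 2 = ((243 / 512 : ℝ) ^ 2) ^ n := by
      rw [← pow_mul, mul_comm, pow_mul]
    rw [eX, e5]
    calc ((m : ℝ) ^ 2) ^ n * 4 ^ n * Qr k ^ 2
        ≤ ((n : ℝ) ^ n / ((2 : ℝ) ^ 60) ^ n) * 4 ^ n * Qr k ^ 2 :=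
          mul_le_mul_of_nonneg_right
            (mul_le_mul_of_nonneg_right hM (by positivity)) hQ0
      _ = ((n : ℝ) ^ n * Qr k ^ 2) * (4 ^ n / ((2 : ℝ) ^ 60) ^ n) := by ring
      _ ≤ (((2 : ℝ) ^ 41) ^ n * (4 ^ n * 4 ^ n)) * (4 ^ n / ((2 : ℝ) ^ 60) ^ n) :=
          mul_le_mul_of_nonneg_right hmain (by positivity)
      _ = ((2 : ℝ) ^ 41 * 4 * 4 * 4 / 2 ^ 60) ^ n := by
          rw [div_pow, mul_pow, mul_pow, mul_pow]; ring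
      _ ≤ ((243 / 512 : ℝ) ^ 2) ^ n := hfin
  exact (pow_le_pow_iff_left₀ hX0 (by positivity) (by norm_num)).mp hsq

end Vale.Agent.Lib.P160
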